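import Vale.Agent.P163.Existence

/-!
# P163: algebraic decay of correlations with exponent up to `n / (4 π β)`
-/

namespace Vale.Agent.Results.P163.AlgebraicDecay

open MeasureTheory Vale.Agent.P163

/-- Every infinite-volume state of the planar `O(n)` model decays at least like `r ^ (-ρ)` for
every `ρ < n / (4 π β)`, and such states exist. -/
theorem result (n : ℕ) (hn : 2 ≤ n) (β : ℝ) (hβ : 0 < β) :
    (∃ μ : Measure (Site → Spin n), IsLimitState n β μ) ∧
    ∀ ρ : ℝ, ρ < n / (4 * Real.pi * β) →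
      ∃ C : ℝ, 0 < C ∧ ∀ μ : Measure (Site → Spin n), IsLimitState n β μ →
        ∀ x y : Site, x ≠ y →
          |∫ σ, dot (σ x) (σ y) ∂μ|
            ≤ C * Real.sqrt (((y.1 : ℝ) - x.1) ^ 2 + ((y.2 : ℝ) - x.2) ^ 2) ^ (-ρ) := by
  have : NeZero n := ⟨by omega⟩
  refine ⟨exists_limit_state β, fun ρ hρ => ?_⟩
  obtain ⟨C, hC, h⟩ := limit_state_decay hn hβ hρ
  refine ⟨C, hC, fun μ hμ x y hxy => ?_⟩
  have e : Real.sqrt (((y.1 : ℝ) - x.1) ^ 2 + ((y.2 : ℝ) - x.2) ^ 2) = rad (y - x) := by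
    rw [← Real.sqrt_sq (rad_nonneg (y - x)), rad_sq]
    simp
  rw [e]
  exact h μ hμ x y hxy

end Vale.Agent.Results.P163.AlgebraicDecay
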