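import Vale.Agent.P163.Existence
import Vale.Agent.P163.Gap.Chain
import Vale.Agent.P163.Gap.Step
import Vale.Agent.P163.Gap.Good

/-!
# P163: exponential decay for `β ≤ c n log n`
-/

namespace Vale.Agent.Results.P163.MassGapNLogN

open MeasureTheory Vale.Agent.P163 Vale.Agent.P163.Gap

/-- With one absolute constant `c`, every infinite-volume state of the planar `O(n)` model with
`n ≥ 2` and `β ≤ c n log n` has exponential decay of correlations, and such states exist. -/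
theorem result :
    ∃ c : ℝ, 0 < c ∧ ∀ n : ℕ, 2 ≤ n → ∀ β : ℝ, 0 < β → β ≤ c * n * Real.log n →
      (∃ μ : Measure (Site → Spin n), IsLimitState n β μ) ∧
      ∃ C m : ℝ, 0 < C ∧ 0 < m ∧ ∀ μ : Measure (Site → Spin n), IsLimitState n β μ →
        ∀ x y : Site, |∫ σ, dot (σ x) (σ y) ∂μ|
          ≤ C * Real.exp (-m * Real.sqrt (((y.1 : ℝ) - x.1) ^ 2 + ((y.2 : ℝ) - x.2) ^ 2)) := by
  obtain ⟨c, hc, h⟩ := massGoal_of isingGoal (stepGoal_of goodGoal)
  refine ⟨c, hc, fun n hn β hβ hle => ?_⟩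
  have : NeZero n := ⟨by omega⟩
  obtain ⟨C, m, hC, hm, hdec⟩ := h n hn β hβ hle
  refine ⟨exists_limit_state β, C, m, hC, hm, fun μ hμ x y => ?_⟩
  have e : Real.sqrt (((y.1 : ℝ) - x.1) ^ 2 + ((y.2 : ℝ) - x.2) ^ 2) = rad (y - x) := by
    rw [← Real.sqrt_sq (rad_nonneg (y - x)), rad_sq]
    simp
  rw [e]
  exact hdec μ hμ x y

end Vale.Agent.Results.P163.MassGapNLogN
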